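import Vale.Agent.P267.StmtK
import Vale.Agent.P267K.Top

open Vale.Agent.P267

theorem Vale.Agent.Results.P267.Shell.result (hL : Fin5.Lattices)
    (X : Type) [TopologicalSpace X] [ChartedSpace C2 X] (hX : Fin5.IsSurface X)
    (h7 : Fin5.IsClassVII X) :
    (∃ C : Fin (Fin5.secondBetti X) → Set X, Function.Injective C ∧ ∀ i, IsRationalCurve (C i)) ∧
      (Fin5.DOT → Fin5.IsMinimal X → 0 < Fin5.secondBetti X → Fin5.HasGSS X) := by
  obtain ⟨a1, a2, a3, a4⟩ := id hX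
  obtain ⟨M, _, _, _, _, _, π, g, h4⟩ := Vale.Agent.P267X.exists_cyclic X h7.1
  have h := Vale.Agent.P267K.curves5 h4 h7.1 h7.2 (hL X hX h7 M π g h4)
  exact ⟨h, fun hD hm hb => hD X hX h7 hm hb h⟩
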