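import Vale.Agent.P267R.Stmt2
import Vale.Agent.P267I.Top

open Vale.Agent.P267R

theorem Vale.Agent.Results.P267.Wboth.result
    (X : Type) [TopologicalSpace X] [ChartedSpace C2 X] (hX : IsSurface X) (h7 : IsClassVII X) :
    HasCurves X ∧ (DOT → IsMinimal X → 0 < b2 X → HasGSS X) :=
  ⟨Vale.Agent.P267I.curves hX h7,
    fun hD hm hb => hD X hX h7 hm hb (Vale.Agent.P267I.curves hX h7)⟩
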